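import Mathlib.Topology.Instances.Real.Lemmas
import Mathlib.Data.Set.Card
import Mathlib.Tactic

/-!
# Block LEFN: propagation along the levels (real line part)

A family `L s : ℕ → ℤ` (partial Lefschetz sums of the level `s`) which does not change eventually
on critical-free intervals and for some pairs of levels arbitrarily close to each critical value
on both sides of it, is the same at all regular levels.
-/

open Filter Set Topology

namespace Vale.Agent.P216.H985

theorem line_eq {K : Set ℝ} (hK : ∀ s t, (K ∩ Icc s t).Finite) {α : Type*} (L : ℝ → ℕ → α)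
    (hreg : ∀ s t, 0 < s → s ≤ t → (∀ x ∈ Icc s t, x ∉ K) → ∀ᶠ m in atTop, L s m = L t m)
    (hcross : ∀ c ∈ K, 0 < c → ∀ ε > 0, ∃ s t, 0 < s ∧ c - ε < s ∧ s < c ∧ c < t ∧ t < c + ε ∧
      s ∉ K ∧ t ∉ K ∧ ∀ᶠ m in atTop, L s m = L t m) :
    ∀ (N : ℕ) (s t : ℝ), (K ∩ Icc s t).ncard ≤ N → 0 < s → s ≤ t → s ∉ K → t ∉ K →
      ∀ᶠ m in atTop, L s m = L t m := by
  intro N
  induction N with
  | zero =>
    intro s t hN hs hst _ _
    have h0 : K ∩ Icc s t = ∅ := (ncard_eq_zero (hK s t)).mp (by omega)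
    refine hreg s t hs hst fun x hx hxK => ?_
    have : x ∈ K ∩ Icc s t := ⟨hxK, hx⟩
    rw [h0] at this
    exact this
  | succ N ih =>
    intro s t hN hs hst hsK htK
    by_cases hne : (K ∩ Icc s t).Nonempty
    · obtain ⟨c, hc, hmax⟩ := (hK s t).exists_maximalFor id _ hne
      have hmax' : ∀ x ∈ K ∩ Icc s t, x ≤ c := fun x hx => by
        by_contra h
        exact absurd (hmax hx (le_of_not_ge h)) (not_le_of_gt (not_le.mp h))
      have hsc : s < c := lt_of_le_of_ne hc.2.1 fun h => hsK (h ▸ hc.1)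
      have hct : c < t := lt_of_le_of_ne hc.2.2 fun h => htK (h ▸ hc.1)
      have hF : ((K ∩ Icc s t) \ {c}).Finite := (hK s t).sdiff
      have hmem : (((K ∩ Icc s t) \ {c})ᶜ : Set ℝ) ∈ 𝓝 c :=
        hF.isClosed.isOpen_compl.mem_nhds fun h => h.2 rfl
      obtain ⟨ε, hε, hball⟩ := Metric.mem_nhds_iff.mp hmem
      have hδ : 0 < min ε (min (c - s) (t - c)) :=
        lt_min hε (lt_min (by linarith) (by linarith))
      obtain ⟨s1, t1, hs1, h1, h2, h3, h4, hs1K, ht1K, heq⟩ :=
        hcross c hc.1 (hs.trans hsc) _ hδ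
      have hd1 := min_le_left ε (min (c - s) (t - c))
      have hd2 := (min_le_right ε (min (c - s) (t - c))).trans (min_le_left _ _)
      have hd3 := (min_le_right ε (min (c - s) (t - c))).trans (min_le_right _ _)
      have hss1 : s ≤ s1 := by linarith
      have ht1t : t1 ≤ t := by linarith
      have e1 : ∀ᶠ m in atTop, L s m = L s1 m := by
        refine ih s s1 ?_ hs hss1 hsK hs1K
        have hsub : K ∩ Icc s s1 ⊂ K ∩ Icc s t := by
          refine ⟨fun x hx => ⟨hx.1, hx.2.1, by linarith [hx.2.2]⟩, fun h => ?_⟩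
          have := (h hc).2.2
          linarith
        have := ncard_lt_ncard hsub (hK s t)
        omega
      have e2 : ∀ᶠ m in atTop, L t1 m = L t m := by
        refine hreg t1 t (hs1.trans (h2.trans h3)) ht1t fun x hx hxK => ?_
        have := hmax' x ⟨hxK, by linarith [hx.1], hx.2⟩
        linarith [hx.1]
      filter_upwards [e1, heq, e2] with m a b c
      rw [a, b, c]
    · rw [not_nonempty_iff_eq_empty] at hne
      exact ih s t (by rw [hne, ncard_empty]; omega) hs hst hsK htK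

/-- The same for arbitrary regular `s, t`. -/
theorem line_eq' {K : Set ℝ} (hK : ∀ s t, (K ∩ Icc s t).Finite) {α : Type*} (L : ℝ → ℕ → α)
    (hreg : ∀ s t, 0 < s → s ≤ t → (∀ x ∈ Icc s t, x ∉ K) → ∀ᶠ m in atTop, L s m = L t m)
    (hcross : ∀ c ∈ K, 0 < c → ∀ ε > 0, ∃ s t, 0 < s ∧ c - ε < s ∧ s < c ∧ c < t ∧ t < c + ε ∧
      s ∉ K ∧ t ∉ K ∧ ∀ᶠ m in atTop, L s m = L t m)
    {s t : ℝ} (hs : 0 < s) (ht : 0 < t) (hsK : s ∉ K) (htK : t ∉ K) :
    ∀ᶠ m in atTop, L s m = L t m := by
  rcases le_total s t with h | h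
  · exact line_eq hK L hreg hcross _ s t le_rfl hs h hsK htK
  · filter_upwards [line_eq hK L hreg hcross _ t s le_rfl ht h htK hsK] with m hm
    exact hm.symm

end Vale.Agent.P216.H985
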