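import Vale.Agent.P216.H985.LefPair
import Vale.Agent.P216.H985.LefLine
import Vale.Agent.P216.AS.Endgame707

set_option linter.unusedSectionVars false

/-!
# Block LEFN: the Lefschetz number of the reversal at all regular levels

`Sys` packages the invariance of the sublevel sets `X s` under the symmetries; `lef X s m` is the
partial Lefschetz sum. `lef_ne_zero`: if it is nonzero (eventually) at one regular level, the
restrictions are bijective on critical-free intervals and crossings are balanced, then it is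
nonzero at every regular level, in the form needed by `AS.window`.
-/

open Module LinearMap Filter Set Topology

namespace Vale.Agent.P216.H985

open AS AS.GCx AS.GCx.Pair

variable {k : Type} [Field k] {E : Type} [PseudoMetricSpace E] {I : Type} {a : I → E → E}
  {χ : I → k}

/-- The critical values are locally finite. -/
theorem crit_finite {ι : Type*} [Finite ι] (ℓ : ι → ℝ) (hℓ : ∀ i, 0 < ℓ i) (s t : ℝ) :
    (Crit ℓ ∩ Icc s t).Finite := by
  have h : (Crit ℓ ∩ Icc s t) ⊆ ⋃ i, (fun m : ℕ => (m : ℝ) * ℓ i) '' {m : ℕ | (m : ℝ) ≤ t / ℓ i} := by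
    rintro x ⟨⟨i, m, -, rfl⟩, hx⟩
    refine mem_iUnion.mpr ⟨i, m, ?_, rfl⟩
    change (m : ℝ) ≤ t / ℓ i
    rw [le_div_iff₀ (hℓ i)]
    exact hx.2
  refine (Set.finite_iUnion fun i => Finite.image _ ?_).subset h
  refine (Set.finite_Iic ⌊t / ℓ i⌋₊).subset fun m hm => ?_
  exact Nat.le_floor hm

/-- Invariance of the sublevel sets under the symmetries, in cochain form. -/
structure Sys (G : GCx (ASK E k)) (R : Rev G) (a : I → E → E) (χ : I → k) (X : ℝ → Set E) :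
    Prop where
  mono : Monotone X
  inv : ∀ s i x, a i x ∈ X s ↔ x ∈ X s
  gC : ∀ s, G.Stable (Cc a χ (X s))
  gZ : ∀ s t, s ≤ t → G.Stable (Zr a χ (X t) (X s))
  rC : ∀ s, R.Stable (Cc a χ (X s))
  rZ : ∀ s t, s ≤ t → R.Stable (Zr a χ (X t) (X s))

namespace Sys

variable {G : GCx (ASK E k)} {R : Rev G} {X : ℝ → Set E} (S : Sys G R a χ X)

/-- The pair computing the cohomology of `X s`. -/
abbrev P (s : ℝ) : G.Pair := pr (S.gC s) (S.gZ s s le_rfl) Zr_le_Cc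

/-- The pair computing the cohomology of `(X t, X s)`. -/
abbrev Q {s t : ℝ} (h : s ≤ t) : G.Pair :=
  pr (S.gZ s t h) (S.gZ t t le_rfl) (Zr_anti le_rfl (S.mono h))

theorem PR (s : ℝ) : (S.P s).RStable R := ⟨S.rC s, S.rZ s s le_rfl⟩

theorem QR {s t : ℝ} (h : s ≤ t) : (S.Q h).RStable R := ⟨S.rZ s t h, S.rZ t t le_rfl⟩

/-- Partial Lefschetz sums of the reversal at the level `s`. -/
noncomputable def lef (s : ℝ) (m : ℕ) : ℤ :=
  ∑ n ∈ Finset.range m, (-1 : ℤ) ^ n * chi (rH (S.PR s) n)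

theorem lef_regular {s t : ℝ} (h : s ≤ t)
    (hres : ∀ n, Function.Bijective (res (S.mono h) n : Ha a χ (X t) n →ₗ[k] Ha a χ (X s) n))
    (m : ℕ) : S.lef s m = S.lef t m := by
  unfold lef
  refine Finset.sum_congr rfl fun n _ => ?_
  congr 1
  exact (chi_regular (S.mono h) (S.gC t) (S.gZ t t le_rfl) (S.gC s) (S.gZ s s le_rfl)
    (S.rC t) (S.rZ t t le_rfl) (S.rC s) (S.rZ s s le_rfl) (hres n)).symm

theorem lef_cross (h2 : (2 : k) ≠ 0) {s t : ℝ} (h : s ≤ t)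
    (ft : ∀ n, FiniteDimensional k ((S.P t).HH n)) (fs : ∀ n, FiniteDimensional k ((S.P s).HH n))
    (vs : ∀ᶠ n in atTop, finrank k ((S.P s).HH n) = 0)
    (hchi : ∀ n, chi (rH (S.QR h) n) = 0) : ∀ᶠ m in atTop, S.lef s m = S.lef t m := by
  obtain ⟨m₀, hm₀⟩ := eventually_atTop.mp vs
  refine eventually_atTop.mpr ⟨m₀ + 1, fun m hm => ?_⟩
  obtain ⟨m, rfl⟩ : ∃ j, m = j + 1 := ⟨m - 1, by omega⟩
  exact (lef_step (R := R) h2 (S.mono h) (fun i x _ => S.inv s i x) (S.gC t) (S.gZ t t le_rfl)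
    (S.gZ s t h) (S.gC s) (S.gZ s s le_rfl) (S.rC t) (S.rZ t t le_rfl) (S.rZ s t h) (S.rC s)
    (S.rZ s s le_rfl) ft fs hchi (hm₀ m (by omega))).symm

/-- The Lefschetz number is the same at all regular levels. -/
theorem lef_eq {K : Set ℝ} (hK : ∀ s t, (K ∩ Icc s t).Finite) (h2 : (2 : k) ≠ 0)
    (fin : ∀ s, 0 < s → s ∉ K → ∀ n, FiniteDimensional k ((S.P s).HH n))
    (van : ∀ s, 0 < s → s ∉ K → ∀ᶠ n in atTop, finrank k ((S.P s).HH n) = 0)
    (hreg : ∀ s t (h : s ≤ t), 0 < s → (∀ x ∈ Icc s t, x ∉ K) → ∀ n,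
      Function.Bijective (res (S.mono h) n : Ha a χ (X t) n →ₗ[k] Ha a χ (X s) n))
    (hcross : ∀ c ∈ K, 0 < c → ∀ ε > 0, ∃ s t, ∃ h : s ≤ t, 0 < s ∧ c - ε < s ∧ s < c ∧ c < t ∧
      t < c + ε ∧ s ∉ K ∧ t ∉ K ∧ ∀ n, chi (rH (S.QR h) n) = 0)
    {s t : ℝ} (hs : 0 < s) (ht : 0 < t) (hsK : s ∉ K) (htK : t ∉ K) :
    ∀ᶠ m in atTop, S.lef s m = S.lef t m := by
  refine line_eq' hK S.lef ?_ ?_ hs ht hsK htK
  · intro s t hs hst hf
    exact Eventually.of_forall fun m => S.lef_regular hst (hreg s t hst hs hf) m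
  · intro c hc hc0 ε hε
    obtain ⟨s, t, h, h0, h1, h2', h3, h4, hsK, htK, hchi⟩ := hcross c hc hc0 ε hε
    exact ⟨s, t, h0, h1, h2', h3, h4, hsK, htK,
      S.lef_cross h2 h (fin t (h0.trans (h2'.trans h3)) htK) (fin s h0 hsK) (van s h0 hsK) hchi⟩

/-- **LEFN.** A nonzero Lefschetz number at one regular level gives the hypothesis `hLef` of
`AS.window` at every regular level. -/
theorem lef_ne_zero {K : Set ℝ} (hK : ∀ s t, (K ∩ Icc s t).Finite) (h2 : (2 : k) ≠ 0)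
    (fin : ∀ s, 0 < s → s ∉ K → ∀ n, FiniteDimensional k ((S.P s).HH n))
    (van : ∀ s, 0 < s → s ∉ K → ∀ᶠ n in atTop, finrank k ((S.P s).HH n) = 0)
    (hreg : ∀ s t (h : s ≤ t), 0 < s → (∀ x ∈ Icc s t, x ∉ K) → ∀ n,
      Function.Bijective (res (S.mono h) n : Ha a χ (X t) n →ₗ[k] Ha a χ (X s) n))
    (hcross : ∀ c ∈ K, 0 < c → ∀ ε > 0, ∃ s t, ∃ h : s ≤ t, 0 < s ∧ c - ε < s ∧ s < c ∧ c < t ∧
      t < c + ε ∧ s ∉ K ∧ t ∉ K ∧ ∀ n, chi (rH (S.QR h) n) = 0)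
    {s₀ : ℝ} (hs₀ : 0 < s₀) (hs₀K : s₀ ∉ K) (hid : ∀ n x, rH (S.PR s₀) n x = x)
    (hne : ∀ᶠ m in atTop,
      ∑ n ∈ Finset.range m, (-1 : ℤ) ^ n * (finrank k ((S.P s₀).HH n) : ℤ) ≠ 0)
    {s : ℝ} (hs : 0 < s) (hsK : s ∉ K) (m : ℕ) :
    ∃ m' ≥ m, ∑ n ∈ Finset.range m', (-1 : ℤ) ^ n * chi (rH (S.PR s) n) ≠ 0 := by
  have h0 : ∀ m, S.lef s₀ m =
      ∑ n ∈ Finset.range m, (-1 : ℤ) ^ n * (finrank k ((S.P s₀).HH n) : ℤ) := by
    intro m
    unfold lef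
    refine Finset.sum_congr rfl fun n _ => ?_
    have := fin s₀ hs₀ hs₀K n
    rw [H41.chi_id h2 _ (hid n)]
  have h1 : ∀ᶠ m in atTop, S.lef s m ≠ 0 := by
    filter_upwards [S.lef_eq hK h2 fin van hreg hcross hs₀ hs hs₀K hsK, hne] with m ha hb
    rw [← ha, h0]
    exact hb
  obtain ⟨m', h, h'⟩ := (h1.and (eventually_ge_atTop m)).exists
  exact ⟨m', h', h⟩

/-- Vanishing in high degrees from bounded partial sums (D6). -/
theorem van_of_bound {P : ℕ → ℕ} {B : ℕ} (h : ∀ m, ∑ n ∈ Finset.range m, P n ≤ B) :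
    ∀ᶠ n in atTop, P n = 0 := by
  have hf : {n | P n ≠ 0}.Finite := by
    by_contra hinf
    obtain ⟨T, hT, hTc⟩ := (show {n | P n ≠ 0}.Infinite from hinf).exists_subset_card_eq (B + 1)
    obtain ⟨m, hm⟩ : ∃ m, T ⊆ Finset.range m := by
      refine ⟨T.sup id + 1, fun n hn => Finset.mem_range.mpr ?_⟩
      have : n ≤ T.sup id := Finset.le_sup (f := id) hn
      omega
    have h1 : B + 1 ≤ ∑ n ∈ T, P n := by
      rw [← hTc, Finset.card_eq_sum_ones]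
      exact Finset.sum_le_sum fun n hn => Nat.one_le_iff_ne_zero.mpr (hT hn)
    have h2 : ∑ n ∈ T, P n ≤ ∑ n ∈ Finset.range m, P n :=
      Finset.sum_le_sum_of_subset hm
    have := h m
    omega
  obtain ⟨m, hm⟩ := hf.bddAbove
  refine eventually_atTop.mpr ⟨m + 1, fun n hn => ?_⟩
  by_contra hne
  have : n ≤ m := hm hne
  omega

end Sys

end Vale.Agent.P216.H985
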