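import Vale.Agent.P216.AS.TotLevel
import Vale.Agent.P216.AS.Defs
import Vale.Agent.P216.H41.Lef

set_option linter.unusedSectionVars false

/-!
# Block LEFN: the Lefschetz number of the reversal across one level (algebraic part)

For subcomplexes `T ≤ S ≤ U` invariant under the `Z/p`-action and the reversal, the long exact
sequence of the triple with its involutions (`lesH`), additivity of the Lefschetz numbers
(`lef_triple`), and the comparison of the quotient `Cc X / Zr X A` with the absolute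
cohomology of `A` (`chi_quot`).
-/

open Module LinearMap Filter

namespace Vale.Agent.P216.H985

open AS AS.GCx AS.GCx.Pair

variable {k : Type} [Field k]

/-! ## Traces of involutions -/

section Chi

variable {A B : Type*} [AddCommGroup A] [Module k A] [AddCommGroup B] [Module k B]

/-- The integer trace is invariant under equivariant isomorphisms. -/
theorem chi_congr {r : A →ₗ[k] A} {r' : B →ₗ[k] B} (f : A →ₗ[k] B) (hf : Function.Bijective f)
    (hc : ∀ a, f (r a) = r' (f a)) : chi r = chi r' := by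
  have key : ∀ ε : k, finrank k (eig r ε) = finrank k (eig r' ε) := by
    intro ε
    refine LinearEquiv.finrank_eq (LinearEquiv.ofBijective
      (LinearMap.codRestrict (eig r' ε) (f.comp (eig r ε).subtype) ?_) ⟨?_, ?_⟩)
    · rintro ⟨a, ha⟩
      rw [mem_eig] at ha ⊢
      change r' (f a) = ε • f a
      rw [← hc, ha, map_smul]
    · rintro ⟨a, ha⟩ ⟨a', ha'⟩ he
      exact Subtype.ext (hf.1 (congrArg (fun z : eig r' ε => (z : B)) he))
    · rintro ⟨b, hb⟩
      obtain ⟨a, rfl⟩ := hf.2 b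
      rw [mem_eig, ← hc, ← map_smul] at hb
      exact ⟨⟨a, mem_eig.mpr (hf.1 hb)⟩, rfl⟩
  unfold chi
  rw [key, key]

theorem finrank_eq_of_bijective (f : A →ₗ[k] B) (hf : Function.Bijective f) :
    finrank k A = finrank k B := LinearEquiv.finrank_eq (LinearEquiv.ofBijective f hf)

theorem chi_eq_zero_of_finrank [FiniteDimensional k A] {r : A →ₗ[k] A} (h : finrank k A = 0) :
    chi r = 0 := by
  have ha : finrank k (eig r (1 : k)) = 0 := by
    have : finrank k (eig r (1 : k)) ≤ finrank k A := Submodule.finrank_le _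
    omega
  have hb : finrank k (eig r (-1 : k)) = 0 := by
    have : finrank k (eig r (-1 : k)) ≤ finrank k A := Submodule.finrank_le _
    omega
  unfold chi
  rw [ha, hb]
  simp

end Chi

/-! ## The long exact sequence of a triple -/

variable {C : Amb k} {G : GCx C} {R : Rev G}

/-- The pair `T ≤ S`. -/
abbrev pr {S T : Sub C} (hS : G.Stable S) (hT : G.Stable T) (h : T ≤ S) : G.Pair :=
  ⟨S, T, hS, hT, fun n => h n⟩

section Triple

variable {T S U : Sub C} (hT : G.Stable T) (hS : G.Stable S) (hU : G.Stable U)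
  (hTS : T ≤ S) (hSU : S ≤ U) (rT : R.Stable T) (rS : R.Stable S) (rU : R.Stable U)

/-- The long exact sequence `H (S/T) → H (U/T) → H (U/S) → H (S/T)[1]` with the reversal. -/
noncomputable def lesH : H41.LES k (pr hS hT hTS).HH (pr hU hT (hTS.trans hSU)).HH
    (pr hU hS hSU).HH where
  i n := Hinc hSU le_rfl n
  j n := Hinc le_rfl hTS n
  δ n := Hdel U S T n
  t n := rH (P := pr hS hT hTS) (R := R) ⟨rS, rT⟩ n
  a n := rH (P := pr hU hT (hTS.trans hSU)) (R := R) ⟨rU, rT⟩ n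
  b n := rH (P := pr hU hS hSU) (R := R) ⟨rU, rS⟩ n
  inj := inc_zero_injective hSU
  ex1 n := exact_mid hTS hSU
  ex2 n := exact_del hTS hSU
  ex3 n := exact_inc hTS hSU
  tt n x := (level (P := pr hS hT hTS) (R := R) ⟨rS, rT⟩).rH_rH n x
  aa n x := (level (P := pr hU hT (hTS.trans hSU)) (R := R) ⟨rU, rT⟩).rH_rH n x
  bb n x := (level (P := pr hU hS hSU) (R := R) ⟨rU, rS⟩).rH_rH n x
  ci n x := by
    obtain ⟨x, hx, rfl⟩ := H.exists_mk x
    rfl
  cj n x := by
    obtain ⟨x, hx, rfl⟩ := H.exists_mk x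
    rfl
  cδ n x := by
    obtain ⟨x, hx, rfl⟩ := H.exists_mk x
    change Hdel U S T n (rH (P := pr hU hS hSU) (R := R) ⟨rU, rS⟩ n (H.mk x hx)) =
      rH (P := pr hS hT hTS) (R := R) ⟨rS, rT⟩ (n + 1) (Hdel U S T n (H.mk x hx))
    rw [rH_mk, Hdel_mk, Hdel_mk, rH_mk, H.mk_eq_mk, R.d_r, sub_self]
    exact Submodule.zero_mem _

theorem finite_rel
    (h1 : ∀ n, FiniteDimensional k ((pr hU hT (hTS.trans hSU)).HH n))
    (h2 : ∀ n, FiniteDimensional k ((pr hU hS hSU).HH n)) (n : ℕ) :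
    FiniteDimensional k ((pr hS hT hTS).HH n) := by
  cases n with
  | zero =>
    exact FiniteDimensional.of_injective (Hinc hSU le_rfl 0 : H S T 0 →ₗ[k] H U T 0)
      (inc_zero_injective hSU)
  | succ n => exact finite_of_exact (Hdel U S T n) (Hinc hSU le_rfl (n + 1)) (exact_inc hTS hSU)

/-- Lefschetz numbers agree if the relative traces vanish. -/
theorem lef_triple (h2 : (2 : k) ≠ 0)
    (hA : ∀ n, FiniteDimensional k ((pr hU hT (hTS.trans hSU)).HH n))
    (hB : ∀ n, FiniteDimensional k ((pr hU hS hSU).HH n))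
    (hchi : ∀ n, chi (rH (P := pr hS hT hTS) (R := R) ⟨rS, rT⟩ n) = 0)
    {m : ℕ} (hm : finrank k ((pr hU hS hSU).HH m) = 0) :
    ∑ n ∈ Finset.range (m + 1), (-1 : ℤ) ^ n *
        chi (rH (P := pr hU hT (hTS.trans hSU)) (R := R) ⟨rU, rT⟩ n) =
      ∑ n ∈ Finset.range (m + 1), (-1 : ℤ) ^ n *
        chi (rH (P := pr hU hS hSU) (R := R) ⟨rU, rS⟩ n) := by
  have hrel := finite_rel hT hS hU hTS hSU hA hB
  exact (lesH (R := R) hT hS hU hTS hSU rT rS rU).lef_eq h2 hchi hm

end Triple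

/-! ## Alexander-Spanier pairs -/

section AS

variable {E : Type} [PseudoMetricSpace E] {I : Type} {a : I → E → E} {χ : I → k}

/-- `Cc X / Zr X A` computes the cohomology of `A`. -/
theorem quot_bijective {X A : Set E} (hA : A ⊆ X) (ha : ∀ i, ∀ x ∈ X, a i x ∈ A ↔ x ∈ A) (n : ℕ) :
    Function.Bijective (Hinc (Cc_anti hA) (Zr_anti hA le_rfl) n :
      H (Cc a χ X) (Zr a χ X A) n →ₗ[k] H (Cc a χ A) (Zr a χ A A) n) := by
  classical
  refine Hmap_bijective _ ?_ ?_
  · intro n f hf hf'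
    exact ⟨hf, hf'.2⟩
  · intro n f hf
    refine ⟨fun x => if ∀ j, x j ∈ A then f x else 0, ?_, ?_⟩
    · intro i x hx
      have : (∀ j, (a i ∘ x) j ∈ A) ↔ ∀ j, x j ∈ A :=
        forall_congr' fun j => ha i (x j) (hx j)
      change (if ∀ j, (a i ∘ x) j ∈ A then f (a i ∘ x) else 0) =
        χ i * (if ∀ j, x j ∈ A then f x else 0)
      by_cases h : ∀ j, x j ∈ A
      · rw [if_pos h, if_pos (this.mpr h)]
        exact hf i x h
      · rw [if_neg h, if_neg (fun h' => h (this.mp h')), mul_zero]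
    · have h0 : ∀ x : Fin (n + 1) → E, (∀ j, x j ∈ A) →
          (f - (LinearMap.id : ((ASK E k).K n) →ₗ[k] (ASK E k).K n)
            (fun x => if ∀ j, x j ∈ A then f x else 0)) x = 0 := by
        intro x hx
        change f x - (if ∀ j, x j ∈ A then f x else 0) = 0
        rw [if_pos hx, sub_self]
      refine ⟨?_, 1, one_pos, fun x hx => h0 x hx.1⟩
      intro i x hx
      have h1 : ∀ j, (a i ∘ x) j ∈ A := fun j => (ha i (x j) (hA (hx j))).mpr (hx j)
      rw [h0 _ h1, h0 _ hx, mul_zero]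

variable {G : GCx (ASK E k)} {R : Rev G}

/-- **One level.** `A ⊆ X` invariant sets: if the relative traces of `(X, A)` vanish then the
Lefschetz numbers of `X` and `A` agree. -/
theorem lef_step (h2 : (2 : k) ≠ 0) {X A : Set E} (hAX : A ⊆ X)
    (ha : ∀ i, ∀ x ∈ X, a i x ∈ A ↔ x ∈ A)
    (gX : G.Stable (Cc a χ X)) (gZ : G.Stable (Zr a χ X X)) (gR : G.Stable (Zr a χ X A))
    (gA : G.Stable (Cc a χ A)) (gW : G.Stable (Zr a χ A A))
    (rX : R.Stable (Cc a χ X)) (rZ : R.Stable (Zr a χ X X)) (rR : R.Stable (Zr a χ X A))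
    (rA : R.Stable (Cc a χ A)) (rW : R.Stable (Zr a χ A A))
    (fX : ∀ n, FiniteDimensional k ((pr gX gZ Zr_le_Cc).HH n))
    (fA : ∀ n, FiniteDimensional k ((pr gA gW Zr_le_Cc).HH n))
    (hchi : ∀ n, chi (rH (P := pr gR gZ (Zr_anti le_rfl hAX)) (R := R) ⟨rR, rZ⟩ n) = 0)
    {m : ℕ} (hm : finrank k ((pr gA gW Zr_le_Cc).HH m) = 0) :
    ∑ n ∈ Finset.range (m + 1), (-1 : ℤ) ^ n *
        chi (rH (P := pr gX gZ Zr_le_Cc) (R := R) ⟨rX, rZ⟩ n) =
      ∑ n ∈ Finset.range (m + 1), (-1 : ℤ) ^ n *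
        chi (rH (P := pr gA gW Zr_le_Cc) (R := R) ⟨rA, rW⟩ n) := by
  have hq := quot_bijective (a := a) (χ := χ) (k := k) hAX ha
  have fq : ∀ n, FiniteDimensional k ((pr gX gR Zr_le_Cc).HH n) := fun n =>
    FiniteDimensional.of_injective (Hinc (Cc_anti hAX) (Zr_anti hAX le_rfl) n :
      H (Cc a χ X) (Zr a χ X A) n →ₗ[k] H (Cc a χ A) (Zr a χ A A) n) (hq n).1
  have hm' : finrank k ((pr gX gR Zr_le_Cc).HH m) = 0 := by
    rw [← hm]
    exact finrank_eq_of_bijective _ (hq m)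
  rw [lef_triple (R := R) gZ gR gX (Zr_anti le_rfl hAX) Zr_le_Cc rZ rR rX h2 fX fq hchi hm']
  refine Finset.sum_congr rfl fun n _ => ?_
  congr 1
  refine chi_congr (Hinc (Cc_anti hAX) (Zr_anti hAX le_rfl) n :
      H (Cc a χ X) (Zr a χ X A) n →ₗ[k] H (Cc a χ A) (Zr a χ A A) n) (hq n) fun x => ?_
  obtain ⟨x, hx, rfl⟩ := H.exists_mk x
  rfl

/-- **Regular interval.** If the restriction is bijective the traces agree. -/
theorem chi_regular {X A : Set E} (hAX : A ⊆ X)
    (gX : G.Stable (Cc a χ X)) (gZ : G.Stable (Zr a χ X X))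
    (gA : G.Stable (Cc a χ A)) (gW : G.Stable (Zr a χ A A))
    (rX : R.Stable (Cc a χ X)) (rZ : R.Stable (Zr a χ X X))
    (rA : R.Stable (Cc a χ A)) (rW : R.Stable (Zr a χ A A)) {n : ℕ}
    (hres : Function.Bijective (res hAX n : Ha a χ X n →ₗ[k] Ha a χ A n)) :
    chi (rH (P := pr gX gZ Zr_le_Cc) (R := R) ⟨rX, rZ⟩ n) =
      chi (rH (P := pr gA gW Zr_le_Cc) (R := R) ⟨rA, rW⟩ n) := by
  refine chi_congr (res hAX n : Ha a χ X n →ₗ[k] Ha a χ A n) hres fun x => ?_
  obtain ⟨x, hx, rfl⟩ := H.exists_mk x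
  rfl

end AS

end Vale.Agent.P216.H985
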