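import Vale.Agent.P216.H985.LefMain
import Vale.Agent.P216.AS.Setup707
import Vale.Agent.P216.Bor.Reg

/-!
# LEFN for a `GSys`

`GSys.lef_ne_zero`: from `Base`, `Bound` and the balance of the crossings (block CROSS, part (ii),
on `H`), the Lefschetz sum of the reversal at every regular level is not zero; this is the
hypothesis `hLef` of `AS.window` for `S.level (ZMod p) p hp s`.
-/

open Set Topology Filter
open Module (finrank)

namespace Vale.Agent.P216.GSys

open AS AS.GCx AS.GCx.Pair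

variable {Λ : Type} [PseudoMetricSpace Λ] (S : GSys Λ)

section

variable (k : Type) [Field k] (p : ℕ) (hp : 0 < p)

/-- The invariant pair computing the cohomology of `(X t, X s)`. -/
def Prel {s t : ℝ} (h : s ≤ t) : (S.sym k p hp).gcx.Pair :=
  Sym.PR (S.good k p hp t) (S.good k p hp t).self
    ((S.good k p hp t).goodSub (S.good k p hp s) (S.mono s t h)) (S.mono s t h)

theorem Prel_rstable {s t : ℝ} (h : s ≤ t) :
    (S.Prel k p hp h).RStable (S.sym k p hp).rev := Sym.PR_rstable _ _ _ _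

theorem lefSys : H985.Sys (S.sym k p hp).gcx (S.sym k p hp).rev (fun _ : Unit => S.τ)
    (fun _ : Unit => (-1 : k)) S.X where
  mono := fun s t h => S.mono s t h
  inv s _ x := ⟨fun h => by
    have := S.τ_mem s h
    rwa [S.τ_τ] at this, fun h => S.τ_mem s h⟩
  gC s := Sym.stable_Cc (S.good k p hp s)
  gZ s t h := Sym.stable_Zr (S.good k p hp t) (S.mono s t h) (S.rot_mem p s)
  rC s := Sym.rstable_Cc (S.good k p hp s)
  rZ s t h := Sym.rstable_Zr (S.good k p hp t) (S.mono s t h) (S.θ_mem s)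

end

/-- Critical values are locally finite. -/
theorem crit_finite (s t : ℝ) : (Crit S.ℓ ∩ Icc s t).Finite :=
  haveI := S.fin
  H985.crit_finite S.ℓ S.ℓ_pos s t

/-- Small symmetric intervals with regular end points. -/
theorem exists_regular (c : ℝ) {δ : ℝ} (hδ : 0 < δ) :
    ∃ e, 0 < e ∧ e < δ ∧ c - e ∉ Crit S.ℓ ∧ c + e ∉ Crit S.ℓ := by
  have hK := S.crit_finite (c - δ) (c + δ)
  have h1 : ((fun e => c - e) ⁻¹' (Crit S.ℓ ∩ Icc (c - δ) (c + δ))).Finite :=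
    hK.preimage fun a _ b _ h => by simpa using h
  have h2 : ((fun e => c + e) ⁻¹' (Crit S.ℓ ∩ Icc (c - δ) (c + δ))).Finite :=
    hK.preimage fun a _ b _ h => by simpa using h
  obtain ⟨e, he, hne⟩ := ((Ioo_infinite hδ).sdiff (h1.union h2)).nonempty
  refine ⟨e, he.1, he.2, fun h => hne (Or.inl ⟨h, ?_, ?_⟩), fun h => hne (Or.inr ⟨h, ?_, ?_⟩)⟩ <;>
    · simp only
      linarith [he.1, he.2]

/-- The form of CROSS (ii) used here. -/
def BalancedH (p : ℕ) (hp : 0 < p) (k : Type) [Field k] : Prop :=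
  ∀ a : ℝ, 0 < a → ∃ e₀ > 0, ∀ e, 0 < e → e ≤ e₀ → ∀ (h : a - e ≤ a + e) (n : ℕ),
    chi (rH (S.Prel_rstable k p hp h) n) = 0

theorem rH_id_of_base {p : ℕ} (hp : 0 < p) {k : Type} [Field k] {s₀ : ℝ}
    (h : ∀ n, ∀ f ∈ Zc (S.CS k s₀) (S.CT k s₀) n,
      P265.AS.pb S.θ f - f ∈ Bc (S.CS k s₀) (S.CT k s₀) n) (n : ℕ)
    (x : (S.P k p hp s₀).HH n) : rH (S.P_rstable k p hp s₀) n x = x := by
  obtain ⟨f, hf, rfl⟩ := H.exists_mk x
  rw [rH_mk, H.mk_eq_mk]
  exact h n f hf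

/-- **LEFN for a `GSys`.** -/
theorem lef_ne_zero (hBase : S.Base) (hBound : S.Bound) {p : ℕ} [hpr : Fact p.Prime]
    (hp2 : 2 < p) (hp : 0 < p) (hcross : S.BalancedH p hp (ZMod p)) {s : ℝ} (hs : 0 < s)
    (hsK : s ∉ Crit S.ℓ) (m : ℕ) :
    ∃ m' ≥ m, ∑ n ∈ Finset.range m', (-1 : ℤ) ^ n *
      chi (rH (S.P_rstable (ZMod p) p hp s) n) ≠ 0 := by
  obtain ⟨s₀, hs₀, hsℓ, hb⟩ := hBase
  obtain ⟨hid, m₀, hm₀⟩ := hb p hpr hp2
  obtain ⟨K, hK⟩ := hBound
  have h2 : (2 : ZMod p) ≠ 0 := by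
    intro h0
    have h1 : ((2 : ℕ) : ZMod p) = 0 := by exact_mod_cast h0
    rw [ZMod.natCast_eq_zero_iff] at h1
    have := Nat.le_of_dvd (by norm_num) h1
    omega
  have hs₀K : s₀ ∉ Crit S.ℓ := by
    rintro ⟨i, j, hj, hij⟩
    have h1 := hsℓ i
    have h3 : (1 : ℝ) ≤ j := by exact_mod_cast hj
    have h4 := S.ℓ_pos i
    rw [hij] at h1
    nlinarith
  refine (S.lefSys (ZMod p) p hp).lef_ne_zero (K := Crit S.ℓ) S.crit_finite h2
    (fun t ht htK n => (hK p hpr hp2 t ht htK).1 n)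
    (fun t ht htK => H985.Sys.van_of_bound (hK p hpr hp2 t ht htK).2) ?_ ?_ hs₀ hs₀K
    (S.rH_id_of_base hp hid) (eventually_atTop.mpr ⟨m₀, hm₀⟩) hs hsK m
  · intro a b hab ha hf n
    exact S.res_bijective ha hab hf (S.mono a b hab) n
  · intro c _ hc ε hε
    obtain ⟨e₀, he₀, h⟩ := hcross c hc
    obtain ⟨e, he, he1, h3, h4⟩ := S.exists_regular c
      (lt_min (lt_min he₀ hε) hc : 0 < min (min e₀ ε) c)
    have h5 : e < e₀ := he1.trans_le ((min_le_left _ _).trans (min_le_left _ _))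
    have h6 : e < ε := he1.trans_le ((min_le_left _ _).trans (min_le_right _ _))
    have h7 : e < c := he1.trans_le (min_le_right _ _)
    exact ⟨c - e, c + e, by linarith, by linarith, by linarith, by linarith, by linarith,
      by linarith, h3, h4, fun n => h e he h5.le (by linarith) n⟩

/-- The hypothesis `hLef` of `AS.window`. -/
theorem hLef (hBase : S.Base) (hBound : S.Bound) {p : ℕ} [hpr : Fact p.Prime]
    (hp2 : 2 < p) (hp : 0 < p) (hcross : S.BalancedH p hp (ZMod p)) {s : ℝ} (hs : 0 < s)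
    (hsK : s ∉ Crit S.ℓ) (m : ℕ) :
    ∃ m' ≥ m, ∑ n ∈ Finset.range m', (-1 : ℤ) ^ n *
      chi ((S.level (ZMod p) p hp s).rH n) ≠ 0 :=
  S.lef_ne_zero hBase hBound hp2 hp hcross hs hsK m

/-- Vanishing in high degrees and finiteness, from `Bound`. -/
theorem van_of_bound' (hBound : S.Bound) {p : ℕ} [hpr : Fact p.Prime] (hp2 : 2 < p) {s : ℝ}
    (hs : 0 < s) (hsK : s ∉ Crit S.ℓ) :
    ∃ m, ∀ n ≥ m, finrank (ZMod p) (S.V (ZMod p) s n) = 0 := by
  obtain ⟨K, hK⟩ := hBound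
  exact eventually_atTop.mp (H985.Sys.van_of_bound (hK p hpr hp2 s hs hsK).2)

end Vale.Agent.P216.GSys
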